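import Vale.Agent.P239.Main4

namespace Vale.Agent.Results.P239.ABetti

open Vale.Agent.P239

/-- Singer conjecture in dimension four: if `p : E → M` is the universal covering of a closed
aspherical topological four manifold with deck group `Γ`, then the first L2-Betti number of `E`
vanishes. -/
theorem result (M E Γ : Type) [TopologicalSpace M] [T2Space M] [CompactSpace M]
    [ChartedSpace (EuclideanSpace ℝ (Fin 4)) M] [TopologicalSpace E] [ContractibleSpace E]
    [Group Γ] [MulAction Γ E] [ContinuousConstSMul Γ E]
    (p : E → M) (hp : IsQuotientCoveringMap p Γ) : VN.betti1 Γ E = 0 :=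
  VN.main_betti hp

end Vale.Agent.Results.P239.ABetti
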