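import Vale.Agent.P239.Main2

namespace Vale.Agent.Results.P239.AFull

open Vale.Agent.P239

/-- Singer conjecture in dimension four: the first L2-Betti number of every torsion free mod 2
Poincare duality group of dimension four vanishes. -/
theorem result (Γ : Type) [Group Γ] (X : PD4Complex Γ)
    (htf : ∀ g : Γ, IsOfFinOrder g → g = 1) : ReducedH1Vanishes Γ :=
  main_full X htf

end Vale.Agent.Results.P239.AFull
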