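import Vale.Agent.P239.Main3

namespace Vale.Agent.Results.P239.AManifold

open Vale.Agent.P239

/-- Singer conjecture in dimension four: for a closed topological four manifold `M` with a
contractible covering space, the reduced first cohomology of the fundamental group with
coefficients in its left regular representation vanishes. -/
theorem result (M E : Type) [TopologicalSpace M] [T2Space M] [CompactSpace M]
    [ChartedSpace (EuclideanSpace ℝ (Fin 4)) M] [TopologicalSpace E] [ContractibleSpace E]
    (p : E → M) (hp : IsCoveringMap p) (hs : Function.Surjective p) (x : M) :
    ReducedH1Vanishes (FundamentalGroup M x) :=
  AS.main_manifold hp hs x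

end Vale.Agent.Results.P239.AManifold
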