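import Vale.Agent.P239.Main

namespace Vale.Agent.Results.P239.Combable

open Vale.Agent.P239

/-- Singer conjecture in dimension four (vanishing of the first L2-Betti number) for torsion
free mod 2 Poincare duality groups of dimension four that have a subquadratic filling function
for 2-cycles, or are combable, CAT(0) or hyperbolic. -/
theorem result (Γ : Type) [Group Γ] (X : PD4Complex Γ)
    (htf : ∀ g : Γ, IsOfFinOrder g → g = 1)
    (h : SubquadraticFilling X ∨ SubquadraticCofilling X ∨ IsCombable Γ ∨ IsCAT0Group Γ ∨
      IsHyperbolicGroup Γ) : ReducedH1Vanishes Γ :=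
  main X htf h

end Vale.Agent.Results.P239.Combable
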